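import Vale.Agent.P300.H959.LA

/-! # P300 / H433 : the group `E = Γ ⋊ V`, the local groups and the product lattices -/

namespace Vale.Agent.P300.H433

open Vale.Agent.P300.H959

/-- `π₁ (M_{0,5})` -/
abbrev EE := SemidirectProduct Gm VV act

/-- exponent sums with values `x ↦ 1`: `c₁ ↦ 1, c₂ ↦ -1, c₃ ↦ 0` -/
def clX : Gm →* Multiplicative ℤ := FreeGroup.lift ![Multiplicative.ofAdd 1, Multiplicative.ofAdd (-1), 1]

/-- `c₁ ↦ 0, c₂ ↦ 0, c₃ ↦ 1` -/
def clY : Gm →* Multiplicative ℤ := FreeGroup.lift ![1, 1, Multiplicative.ofAdd 1]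

/-- `T₀ ↦ 0, T₁ ↦ 1` -/
def chi : VV →* Multiplicative ℤ := FreeGroup.lift ![1, Multiplicative.ofAdd 1]

@[simp] theorem clX_0 : clX (c 0) = Multiplicative.ofAdd 1 := FreeGroup.lift_apply_of (f := _) (x := 0)
@[simp] theorem clX_1 : clX (c 1) = Multiplicative.ofAdd (-1) := FreeGroup.lift_apply_of (f := _) (x := 1)
@[simp] theorem clX_2 : clX (c 2) = 1 := FreeGroup.lift_apply_of (f := _) (x := 2)
@[simp] theorem clY_0 : clY (c 0) = 1 := FreeGroup.lift_apply_of (f := _) (x := 0)
@[simp] theorem clY_1 : clY (c 1) = 1 := FreeGroup.lift_apply_of (f := _) (x := 1)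
@[simp] theorem clY_2 : clY (c 2) = Multiplicative.ofAdd 1 := FreeGroup.lift_apply_of (f := _) (x := 2)
@[simp] theorem chi_0 : chi (FreeGroup.of 0) = 1 := FreeGroup.lift_apply_of (f := _) (x := 0)
@[simp] theorem chi_1 : chi (FreeGroup.of 1) = Multiplicative.ofAdd 1 := FreeGroup.lift_apply_of (f := _) (x := 1)

/-- a homomorphism from `Γ` to a commutative group is invariant under `V` -/
theorem cl_act {M : Type*} [CommGroup M] (f : Gm →* M) (v : VV) (g : Gm) : f (act v g) = f g := by
  have h0 : f.comp T0.toMonoidHom = f := by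
    ext i
    fin_cases i
    · change f (T0 (c 0)) = f (c 0)
      rw [T0_c0, map_mul, map_mul, map_inv, mul_comm (f dl), mul_assoc, mul_inv_cancel, mul_one]
    · change f (T0 (c 1)) = f (c 1)
      rw [T0_c1, map_mul, map_mul, map_inv, mul_comm (f dl), mul_assoc, mul_inv_cancel, mul_one]
    · change f (T0 (c 2)) = f (c 2)
      rw [T0_c2]
  have h1 : f.comp T1.toMonoidHom = f := by
    ext i
    fin_cases i
    · change f (T1 (c 0)) = f (c 0)
      rw [T1_c0]
    · change f (T1 (c 1)) = f (c 1)
      rw [T1_c1, map_mul, map_mul, map_inv, mul_comm (f ep), mul_assoc, mul_inv_cancel, mul_one]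
    · change f (T1 (c 2)) = f (c 2)
      rw [T1_c2, map_mul, map_mul, map_inv, mul_comm (f ep), mul_assoc, mul_inv_cancel, mul_one]
  have k0 : ∀ g, f (T0 g) = f g := fun g => DFunLike.congr_fun h0 g
  have k1 : ∀ g, f (T1 g) = f g := fun g => DFunLike.congr_fun h1 g
  induction v using FreeGroup.induction_on generalizing g with
  | C1 => simp
  | of i =>
    fin_cases i
    · change f (act (FreeGroup.of 0) g) = f g
      rw [act_0]; exact k0 g
    · change f (act (FreeGroup.of 1) g) = f g
      rw [act_1]; exact k1 g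
  | inv_of i _ =>
    rw [map_inv]
    fin_cases i
    · change f ((act (FreeGroup.of 0))⁻¹ g) = f g
      rw [act_0, ← k0 (T0⁻¹ g), ← MulAut.mul_apply, mul_inv_cancel, MulAut.one_apply]
    · change f ((act (FreeGroup.of 1))⁻¹ g) = f g
      rw [act_1, ← k1 (T1⁻¹ g), ← MulAut.mul_apply, mul_inv_cancel, MulAut.one_apply]
  | mul u w hu hw =>
    rw [map_mul, MulAut.mul_apply, hu, hw]

/-- the product `P = c₁ c₂ c₃ = c₄⁻¹` -/
def PP : Gm := c 0 * c 1 * c 2

theorem T0_PP : T0 PP = PP := by
  rw [PP, map_mul, map_mul, T0_c0, T0_c1, T0_c2, dl]; group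

theorem T1_PP : T1 PP = PP := by
  rw [PP, map_mul, map_mul, T1_c0, T1_c1, T1_c2, ep]; group

theorem act_PP (v : VV) : act v PP = PP := by
  induction v using FreeGroup.induction_on with
  | C1 => simp
  | of i =>
    fin_cases i
    · change act (FreeGroup.of 0) PP = PP
      rw [act_0]; exact T0_PP
    · change act (FreeGroup.of 1) PP = PP
      rw [act_1]; exact T1_PP
  | inv_of i h =>
    rw [map_inv]
    have h' : (act (FreeGroup.of i))⁻¹ (act (FreeGroup.of i) PP) = PP := by
      rw [← MulAut.mul_apply, inv_mul_cancel, MulAut.one_apply]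
    rwa [h] at h'
  | mul u w hu hw =>
    rw [map_mul, MulAut.mul_apply, hw, hu]

/-- the data of one of the three degenerations: `τ = (p, T)` acts on `Γ` as conjugation by `d` on the first side
and trivially on the second side. -/
structure LocD where
  p : Gm
  T : VV
  d : Gm
  s1 : Fin 2 → Gm
  s2 : Fin 2 → Gm
  hp : ∀ v, act v p = p
  h1 : ∀ i, p * act T (s1 i) * p⁻¹ = d * s1 i * d⁻¹
  h2 : ∀ i, p * act T (s2 i) * p⁻¹ = s2 i
  hd : p * act T d * p⁻¹ = d
  gen : Subgroup.closure (Set.range s1 ∪ Set.range s2) = ⊤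

namespace LocD

variable (L : LocD)

/-- the meridian of the second side -/
def tpp : EE := ⟨L.p, L.T⟩

/-- the meridian of the first side -/
def tp : EE := SemidirectProduct.inl L.d⁻¹ * L.tpp

/-- the five pairs of commuting meridians -/
def pairs : List (EE × EE) :=
  [(SemidirectProduct.inl (L.s1 0), L.tp), (SemidirectProduct.inl (L.s1 1), L.tp),
   (SemidirectProduct.inl (L.s2 0), L.tpp), (SemidirectProduct.inl (L.s2 1), L.tpp), (L.tp, L.tpp)]

/-- transport by an element of `V` -/
def tr (v : VV) : LocD where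
  p := L.p
  T := v * L.T * v⁻¹
  d := act v L.d
  s1 := fun i => act v (L.s1 i)
  s2 := fun i => act v (L.s2 i)
  hp := L.hp
  h1 := fun i => by
    have h := congrArg (act v) (L.h1 i)
    rw [map_mul, map_mul, map_inv, L.hp, map_mul, map_mul, map_inv] at h
    rw [map_mul, map_mul, map_inv, MulAut.mul_apply, MulAut.mul_apply, MulAut.inv_apply_self]
    exact h
  h2 := fun i => by
    have h := congrArg (act v) (L.h2 i)
    rw [map_mul, map_mul, map_inv, L.hp] at h
    rw [map_mul, map_mul, map_inv, MulAut.mul_apply, MulAut.mul_apply, MulAut.inv_apply_self]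
    exact h
  hd := by
    have h := congrArg (act v) L.hd
    rw [map_mul, map_mul, map_inv, L.hp] at h
    rw [map_mul, map_mul, map_inv, MulAut.mul_apply, MulAut.mul_apply, MulAut.inv_apply_self]
    exact h
  gen := by
    have h := congrArg (Subgroup.map (act v).toMonoidHom) L.gen
    rw [MonoidHom.map_closure, Set.image_union, ← Set.range_comp, ← Set.range_comp] at h
    rw [Subgroup.map_top_of_surjective _ (act v).surjective] at h
    exact h

end LocD

end Vale.Agent.P300.H433
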