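import Mathlib

/-! # P300 / H433 : stationarity of bounded monotone families over finitely many cosets -/

namespace Vale.Agent.P300.H433

/-- a monotone bounded sequence of natural numbers is eventually constant -/
theorem eventually_const (f : ℕ → ℕ) (B : ℕ) (hB : ∀ n, f n ≤ B) (hm : ∀ n, f n ≤ f (n + 1)) :
    ∃ n0, ∀ n ≥ n0, f n = f n0 := by
  have hmono : Monotone f := monotone_nat_of_le_succ hm
  have hfin : (Set.range f).Finite := (Set.finite_Iic B).subset (by rintro _ ⟨n, rfl⟩; exact hB n)
  obtain ⟨x, ⟨n0, rfl⟩, hx⟩ := Set.exists_max_image (Set.range f) id hfin ⟨_, 0, rfl⟩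
  exact ⟨n0, fun n hn => le_antisymm (hx _ ⟨n, rfl⟩) (hmono hn)⟩

/-- stationarity, uniformly in `v`, for a family invariant under left multiplication by a subgroup of finite index -/
theorem stationary {V : Type*} [Group V] (V' : Subgroup V) [V'.FiniteIndex] (f : ℕ → V → ℕ) (B : ℕ)
    (hB : ∀ n v, f n v ≤ B) (hm : ∀ n v, f n v ≤ f (n + 1) v)
    (hV : ∀ n, ∀ u ∈ V', ∀ v, f n (u * v) = f n v) :
    ∃ n0, ∀ n ≥ n0, ∀ v, f n v = f n0 v := by
  classical
  have hfin : Finite (Quotient (QuotientGroup.rightRel V')) :=
    Finite.of_equiv _ (QuotientGroup.quotientRightRelEquivQuotientLeftRel V').symm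
  have := Fintype.ofFinite (Quotient (QuotientGroup.rightRel V'))
  choose N hN using fun q : Quotient (QuotientGroup.rightRel V') =>
    eventually_const (fun n => f n q.out) B (fun n => hB n _) (fun n => hm n _)
  refine ⟨Finset.univ.sup N, fun n hn v => ?_⟩
  set q : Quotient (QuotientGroup.rightRel V') := Quotient.mk _ v with hq
  have hrel : QuotientGroup.rightRel V' q.out v := by
    have := Quotient.mk_out (s := QuotientGroup.rightRel V') v
    exact this
  rw [QuotientGroup.rightRel_apply] at hrel
  have hv : ∀ k, f k v = f k q.out := fun k => by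
    have h := hV k _ hrel q.out
    rw [inv_mul_cancel_right] at h
    exact h
  have hle : N q ≤ Finset.univ.sup N := Finset.le_sup (Finset.mem_univ q)
  rw [hv, hv, hN q n (hle.trans hn), hN q _ hle]

end Vale.Agent.P300.H433
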